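import Vale.Agent.P268.Bdl.B1

namespace Vale.Agent.Results.P268.ComponentCurves

open Vale.Agent.P268

theorem result {E : Type*} [NormedAddCommGroup E] [NormedSpace ℂ E] [FiniteDimensional ℂ E]
    (f g : E → ℂ) (hf : Red f) (hg : Red g) (hfg : AmbHomeo f g) :
    (ClassT f → mult g ≤ mult f) ∧ (ClassT f → ClassT g → mult g = mult f) ∧
      (ClassT f → Homog g → mult g = mult f) ∧ (ClassZ f → mult g = mult f) :=
  ⟨fun h => theoremT hf hg hfg h, fun h h' => (theoremT_eq hf hg hfg h h').symm,
    fun h h' => (theoremT_homog hf hg hfg h h').symm, fun h => theoremZ hf hg hfg h⟩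

end Vale.Agent.Results.P268.ComponentCurves
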